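import Vale.Agent.P154.Tree.Laws

/-!
# Monotonicity of the reconstruction advantage in the edge parameter

At fixed sign the channel is more informative for larger `|lam|`: an edge with parameter
`c * lam`, `c ∈ [0, 1]`, is a degradation of an edge with parameter `lam`.
-/

namespace Vale.Agent.P154.Tree

open Finset Filter Topology

variable {q : ℕ} {ι κ : Type}

/-- `X` is obtained from `Y` by post-processing. -/
def Deg (X : ι → Fin q → ℝ) (Y : κ → Fin q → ℝ) : Prop :=
  ∃ K : κ → ι → ℝ, (∀ p o, 0 ≤ K p o) ∧ (∀ p, HasSum (K p) 1) ∧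
    ∀ o i, HasSum (fun p => K p o * Y p i) (X o i)

theorem hasSum_pi_prod : ∀ {k : ℕ} (g : Fin k → ι → ℝ) (s : Fin k → ℝ),
    (∀ a o, 0 ≤ g a o) → (∀ a, HasSum (g a) (s a)) →
    HasSum (fun f : Fin k → ι => ∏ a, g a (f a)) (∏ a, s a) := by
  intro k
  induction k with
  | zero =>
    intro g s _ _
    simp
  | succ k ih =>
    intro g s hnn hg
    have h2 : HasSum (fun f : Fin k → ι => ∏ a : Fin k, g a.succ (f a)) (∏ a : Fin k, s a.succ) :=
      ih _ _ (fun a => hnn a.succ) fun a => hg a.succ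
    have hs : Summable fun p : ι × (Fin k → ι) => g 0 p.1 * ∏ a : Fin k, g a.succ (p.2 a) :=
      Summable.mul_of_nonneg (f := g 0)
        (g := fun f : Fin k → ι => ∏ a : Fin k, g a.succ (f a)) (hg 0).summable h2.summable (hnn 0)
        (fun f => prod_nonneg fun a _ => hnn a.succ _)
    have h := HasSum.mul (f := g 0)
      (g := fun f : Fin k → ι => ∏ a : Fin k, g a.succ (f a)) (hg 0) h2 hs
    let e : ι × (Fin k → ι) ≃ (Fin (k + 1) → ι) := Fin.consEquiv fun _ : Fin (k + 1) => ι
    have h' : HasSum ((fun f : Fin (k + 1) → ι => ∏ a, g a (f a)) ∘ e)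
        (s 0 * ∏ a : Fin k, s a.succ) := by
      refine HasSum.congr_fun h fun p => ?_
      simp only [Function.comp_apply, e, Fin.consEquiv, Equiv.coe_fn_mk, Fin.prod_univ_succ,
        Fin.cons_zero, Fin.cons_succ]
    rw [Fin.prod_univ_succ]
    exact e.hasSum_iff.1 h'

theorem Deg.refl [DecidableEq ι] (X : ι → Fin q → ℝ) : Deg X X := by
  refine ⟨fun p o => if o = p then 1 else 0, fun p o => by dsimp only; split_ifs <;> norm_num,
    fun p => hasSum_ite_eq p 1, fun o i => ?_⟩
  have h : (fun p => (if o = p then (1 : ℝ) else 0) * X p i)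
      = fun p => if p = o then X o i else 0 := by
    funext p
    by_cases hp : p = o
    · subst hp; simp
    · rw [if_neg hp, if_neg (Ne.symm hp), zero_mul]
  rw [h]
  exact hasSum_ite_eq o _

theorem Deg.piChan {X : ι → Fin q → ℝ} {Y : κ → Fin q → ℝ} (h : Deg X Y)
    (hY : ∀ o i, 0 ≤ Y o i) (k : ℕ) : Deg (Tree.piChan k X) (Tree.piChan k Y) := by
  obtain ⟨K, h0, h1, h2⟩ := h
  refine ⟨fun g f => ∏ a, K (g a) (f a), fun g f => prod_nonneg fun a _ => h0 _ _, fun g => ?_,
    fun f i => ?_⟩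
  · simpa using hasSum_pi_prod (fun a => K (g a)) (fun _ => 1) (fun a => h0 _) fun a => h1 _
  · refine (hasSum_pi_prod (fun a p => K p (f a) * Y p i) (fun a => X (f a) i)
      (fun a p => mul_nonneg (h0 _ _) (hY _ _)) fun a => h2 _ _).congr_fun fun g => ?_
    simp [Tree.piChan, prod_mul_distrib]

theorem adm_mul {lam c : ℝ} (hl : Adm q lam) (hc0 : 0 ≤ c) (hc1 : c ≤ 1) :
    Adm q (c * lam) := by
  intro i j
  have h : potts q (c * lam) i j = c * potts q lam i j + (1 - c) / q := by
    unfold potts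
    split_ifs <;> ring
  rw [h]
  exact add_nonneg (mul_nonneg hc0 (hl i j)) (div_nonneg (by linarith) (Nat.cast_nonneg q))

theorem Deg.edge {X : ι → Fin q → ℝ} {Y : κ → Fin q → ℝ} (h : Deg X Y) (hq : q ≠ 0)
    (hX : IsChan X) (hY : IsChan Y) {lam c : ℝ} (hl : Adm q lam) (hc0 : 0 ≤ c) (hc1 : c ≤ 1) :
    Deg (Tree.edge (c * lam) X) (Tree.edge lam Y) := by
  obtain ⟨K, h0, h1, h2⟩ := h
  have hq' : (q : ℝ) ≠ 0 := by exact_mod_cast hq
  refine ⟨fun p o => c * K p o + (1 - c) * ((∑ i, X o i) / q), fun p o =>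
    add_nonneg (mul_nonneg hc0 (h0 p o))
      (mul_nonneg (by linarith) (div_nonneg (hX.mass_nonneg o) (Nat.cast_nonneg q))),
    fun p => ?_, fun o i => ?_⟩
  · have h := ((h1 p).mul_left c).add ((hX.hasSum_mass.div_const (q : ℝ)).mul_left (1 - c))
    rw [div_self hq', mul_one, mul_one, add_sub_cancel] at h
    exact h
  · have hA : HasSum (fun p => K p o * Tree.edge lam Y p i) (Tree.edge lam X o i) := by
      have h := hasSum_sum (s := (univ : Finset (Fin q)))
        fun j _ => (h2 o j).mul_left (potts q lam i j)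
      refine h.congr_fun fun p => ?_
      simp only [Tree.edge, mul_sum]
      exact sum_congr rfl fun j _ => by ring
    have hB := (hY.edge' hl).hasSum i
    have h := (hA.mul_left c).add (hB.mul_left ((1 - c) * ((∑ i, X o i) / q)))
    have hval : Tree.edge (c * lam) X o i
        = c * Tree.edge lam X o i + (1 - c) * ((∑ i, X o i) / q) * 1 := by
      simp only [edge_apply]
      field_simp
      ring
    rw [hval]
    exact h.congr_fun fun p => by ring

variable {w : ℕ → ℝ} {d lam c : ℝ}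

theorem deg_lik (hq : q ≠ 0) (hw : IsLaw w d) (hl : Adm q lam) (hc0 : 0 ≤ c) (hc1 : c ≤ 1) :
    ∀ n, Deg (lik q w (c * lam) n) (lik q w lam n)
  | 0 => by
    obtain ⟨K, h0, h1, h2⟩ :=
      Deg.refl (ι := Fin q) (fun (o : Fin q) (i : Fin q) => if o = i then (1 : ℝ) else 0)
    exact ⟨K, h0, h1, h2⟩
  | n + 1 => by
    have hE := Deg.edge (deg_lik hq hw hl hc0 hc1 n) hq (isChan_lik hw (adm_mul hl hc0 hc1) n)
      (isChan_lik hw hl n) hl hc0 hc1
    have hP := fun k => hE.piChan (((isChan_lik hw hl n).edge' hl).nonneg) k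
    choose K h0 h1 h2 using hP
    let L : Obs q (n + 1) → Obs q (n + 1) → ℝ := fun p =>
      Function.extend (Sigma.mk p.1) (fun f => K p.1 p.2 f) 0
    have hL : ∀ (k : ℕ) (g f : Fin k → Obs q n), L ⟨k, g⟩ ⟨k, f⟩ = K k g f :=
      fun k g f => (sigma_mk_injective (i := k)).extend_apply (K k g) (0 : Obs q (n + 1) → ℝ) f
    have hL0 : ∀ (k : ℕ) (g : Fin k → Obs q n) (o : Obs q (n + 1)), o.1 ≠ k → L ⟨k, g⟩ o = 0 :=
      fun k g o ho => Function.extend_apply' _ _ _ fun ⟨f, hf⟩ => ho (by rw [← hf])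
    refine ⟨L, ?_, ?_, ?_⟩
    · rintro ⟨k, g⟩ ⟨k', f⟩
      rcases eq_or_ne k' k with rfl | hk
      · rw [hL]; exact h0 _ _ _
      · rw [hL0 k g ⟨k', f⟩ hk]
    · rintro ⟨k, g⟩
      refine (sigma_mk_injective.hasSum_iff (f := L ⟨k, g⟩) (g := @Sigma.mk ℕ (fun k => Fin k → Obs q n) k) fun o ho => ?_).1 ?_
      · obtain ⟨k', f⟩ := o
        refine hL0 k g ⟨k', f⟩ fun h => ho ?_
        subst h
        exact ⟨f, rfl⟩
      · exact (h1 k g).congr_fun fun f => hL k g f
    · rintro ⟨k, f⟩ i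
      refine (sigma_mk_injective.hasSum_iff
        (f := fun p : Obs q (n + 1) => L p ⟨k, f⟩ * lik q w lam (n + 1) p i) (g := @Sigma.mk ℕ (fun k => Fin k → Obs q n) k) fun p hp => ?_).1 ?_
      · obtain ⟨k', g⟩ := p
        have hne : k ≠ k' := fun h => hp (by subst h; exact ⟨g, rfl⟩)
        rw [hL0 k' g ⟨k, f⟩ hne, zero_mul]
      · refine ((h2 k f i).mul_left (w k)).congr_fun fun g => ?_
        show L ⟨k, g⟩ ⟨k, f⟩ * (w k * Tree.piChan k (Tree.edge lam (lik q w lam n)) g i)
          = w k * (K k g f * Tree.piChan k (Tree.edge lam (lik q w lam n)) g i)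
        rw [hL]
        ring

theorem Deg.l1_le {X : ι → Fin q → ℝ} {Y : κ → Fin q → ℝ} (h : Deg X Y) (hY : IsChan Y) :
    (∑' o, ∑ i, |X o i - (∑ j, X o j) / q|) ≤ ∑' p, ∑ i, |Y p i - (∑ j, Y p j) / q| := by
  obtain ⟨K, h0, h1, h2⟩ := h
  set G : κ → ℝ := fun p => ∑ i, |Y p i - (∑ j, Y p j) / q| with hG
  have hG0 : ∀ p, 0 ≤ G p := fun p => sum_nonneg fun i _ => abs_nonneg _
  have hGs : Summable G := by
    refine Summable.of_nonneg_of_le hG0 (fun p => ?_)
      (hY.hasSum_mass.summable.mul_left ((q : ℝ) + 1))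
    have hm := hY.mass_nonneg p
    refine (sum_le_card_nsmul _ _ (∑ j, Y p j) fun i _ => ?_).trans ?_
    · have hi : Y p i ≤ ∑ j, Y p j := single_le_sum (fun j _ => hY.nonneg p j) (mem_univ i)
      have hq1 : (1 : ℝ) ≤ q := by exact_mod_cast i.pos
      have hd : (∑ j, Y p j) / q ≤ ∑ j, Y p j := div_le_self hm hq1
      have hd0 : 0 ≤ (∑ j, Y p j) / q := div_nonneg hm (Nat.cast_nonneg q)
      rw [abs_le]
      constructor <;> linarith [hY.nonneg p i]
    · simp only [card_univ, Fintype.card_fin, nsmul_eq_mul]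
      nlinarith
  have hprod : HasSum (fun x : κ × ι => K x.1 x.2 * G x.1) (∑' p, G p) := by
    have hs : Summable fun x : κ × ι => K x.1 x.2 * G x.1 := by
      refine (summable_prod_of_nonneg fun x => mul_nonneg (h0 _ _) (hG0 _)).2
        ⟨fun p => ((h1 p).mul_right (G p)).summable, ?_⟩
      refine hGs.congr fun p => ?_
      have := ((h1 p).mul_right (G p)).tsum_eq
      rw [one_mul] at this
      exact this.symm
    have hf : ∀ p, HasSum (fun o => K p o * G p) (G p) := fun p => by
      simpa using (h1 p).mul_right (G p)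
    have := hs.hasSum.prod_fiberwise hf
    rw [this.tsum_eq]
    exact hs.hasSum
  have hcol : ∀ o, Summable fun p => K p o * G p := fun o =>
    hprod.summable.comp_injective (i := fun p => (p, o)) fun a b hab => congrArg Prod.fst hab
  have hswap : HasSum (fun o => ∑' p, K p o * G p) (∑' p, G p) :=
    ((Equiv.prodComm ι κ).hasSum_iff.2 hprod).prod_fiberwise fun o => (hcol o).hasSum
  have hle : ∀ o, (∑ i, |X o i - (∑ j, X o j) / q|) ≤ ∑' p, K p o * G p := fun o => by
    have hA : ∀ i, HasSum (fun p => K p o * (Y p i - (∑ j, Y p j) / q))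
        (X o i - (∑ j, X o j) / q) := fun i => by
      have hm := (hasSum_sum (s := (univ : Finset (Fin q))) fun j _ => h2 o j).div_const (q : ℝ)
      refine ((h2 o i).sub hm).congr_fun fun p => ?_
      rw [← mul_sum]
      ring
    have habs : ∀ i, |X o i - (∑ j, X o j) / q|
        ≤ ∑' p, K p o * |Y p i - (∑ j, Y p j) / q| := fun i => by
      have hs : Summable fun p => K p o * |Y p i - (∑ j, Y p j) / q| := by
        refine ((hA i).summable.norm).congr fun p => ?_
        rw [Real.norm_eq_abs, abs_mul, abs_of_nonneg (h0 p o)]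
      rw [abs_le]
      constructor
      · refine neg_le.1 (hasSum_le (fun p => ?_) (hA i).neg hs.hasSum)
        rw [← mul_neg]
        exact mul_le_mul_of_nonneg_left (neg_le_abs _) (h0 p o)
      · exact hasSum_le (fun p => mul_le_mul_of_nonneg_left (le_abs_self _) (h0 p o)) (hA i)
          hs.hasSum
    refine (sum_le_sum fun i _ => habs i).trans_eq ?_
    rw [← Summable.tsum_finsetSum fun i _ => ?_]
    · simp only [hG, mul_sum]
    · refine ((hA i).summable.norm).congr fun p => ?_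
      rw [Real.norm_eq_abs, abs_mul, abs_of_nonneg (h0 p o)]
  exact hasSum_le hle
    (Summable.of_nonneg_of_le (fun o => sum_nonneg fun i _ => abs_nonneg _) hle
      hswap.summable).hasSum hswap

/-- The advantage is monotone in the edge parameter at fixed sign. -/
theorem adv_mul_le (hw : IsLaw w d) (hl : Adm q lam) (hc0 : 0 ≤ c) (hc1 : c ≤ 1) (n : ℕ) :
    adv q w (c * lam) n ≤ adv q w lam n := by
  rcases eq_or_ne q 0 with hq | hq
  · subst hq; simp [adv]
  · simp only [adv, tsum_mul_left]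
    exact mul_le_mul_of_nonneg_left
      ((deg_lik hq hw hl hc0 hc1 n).l1_le (isChan_lik hw hl n)) (by positivity)

/-- Nonreconstruction passes to parameters of the same sign and smaller modulus. -/
theorem tendsto_adv_of_abs_le {mu : ℝ} (hw : IsLaw w d) (hl : Adm q lam)
    (hs : 0 ≤ mu * lam) (habs : |mu| ≤ |lam|)
    (h : Tendsto (adv q w lam) atTop (𝓝 0)) : Tendsto (adv q w mu) atTop (𝓝 0) := by
  obtain ⟨c, hc0, hc1, rfl⟩ : ∃ c, 0 ≤ c ∧ c ≤ 1 ∧ mu = c * lam := by
    rcases eq_or_ne lam 0 with hz | hz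
    · subst hz
      exact ⟨1, zero_le_one, le_rfl, by simpa using habs⟩
    · refine ⟨mu / lam, ?_, ?_, (div_mul_cancel₀ mu hz).symm⟩
      · rw [← mul_div_mul_right mu lam hz]
        exact div_nonneg hs (mul_self_nonneg lam)
      · refine (le_abs_self _).trans ?_
        rw [abs_div]
        exact (div_le_one (abs_pos.2 hz)).2 habs
  exact squeeze_zero (fun n => adv_nonneg q w _ n) (fun n => adv_mul_le hw hl hc0 hc1 n) h

end Vale.Agent.P154.Tree
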